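import Mathlib

namespace Vale.Agent.Lib.P160.H33

/-- Numeric lemma (linear range) for the rare-values theorem: for `D` at least the fourth
root of `n` and `D ≤ m ≤ n / 30`, the union bound is at most `8^(-n)` once `n` is large. -/
theorem rv_num1 (C : ℝ) (hC : 0 < C) : ∃ N₀ : ℕ, ∀ m n D : ℕ, N₀ ≤ n → 30 * m ≤ n →
    Nat.sqrt (Nat.sqrt n) ≤ D → D ≤ m →
    C / ((D : ℝ) * Real.sqrt (D : ℝ)) ≤ 1 ∧
    (2 : ℝ) ^ n * ((2 * D + 1 : ℕ) : ℝ) ^ n * ((2 * D + 1 + m : ℕ) : ℝ) ^ m *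
      (C / ((D : ℝ) * Real.sqrt (D : ℝ))) ^ (n - m - D) ≤ (1 / 8) ^ n := by
  obtain ⟨N, hN⟩ : ∃ N : ℕ, 64 * 48 ^ 15 * C ^ 14 + 16 * (C + 1) ^ 4 + 16 ≤ (N : ℝ) :=
    ⟨⌈64 * 48 ^ 15 * C ^ 14 + 16 * (C + 1) ^ 4 + 16⌉₊, Nat.le_ceil _⟩
  refine ⟨N, ?_⟩
  intro m n D hn hmn hsD hDm
  -- natural number facts
  have hnat : n < (D + 1) ^ 4 := by
    have h1 : n < (Nat.sqrt n + 1) * (Nat.sqrt n + 1) := Nat.lt_succ_sqrt n
    have h2 : Nat.sqrt n < (Nat.sqrt (Nat.sqrt n) + 1) * (Nat.sqrt (Nat.sqrt n) + 1) :=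
      Nat.lt_succ_sqrt _
    have h3 : Nat.sqrt n + 1 ≤ (D + 1) * (D + 1) := by
      have : (Nat.sqrt (Nat.sqrt n) + 1) * (Nat.sqrt (Nat.sqrt n) + 1) ≤ (D + 1) * (D + 1) :=
        Nat.mul_le_mul (by omega) (by omega)
      omega
    calc n < (Nat.sqrt n + 1) * (Nat.sqrt n + 1) := h1
      _ ≤ ((D + 1) * (D + 1)) * ((D + 1) * (D + 1)) := Nat.mul_le_mul h3 h3
      _ = (D + 1) ^ 4 := by ring
  have hnR : (N : ℝ) ≤ (n : ℝ) := by exact_mod_cast hn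
  have hC14 : 0 ≤ 64 * 48 ^ 15 * C ^ 14 := by positivity
  have hC4 : 0 ≤ 16 * (C + 1) ^ 4 := by positivity
  have hD1 : 1 ≤ D := by
    by_contra h
    have hD0 : D = 0 := by omega
    rw [hD0] at hnat
    have h1 : n < 1 := by simpa using hnat
    have h2 : (n : ℝ) < 1 := by exact_mod_cast h1
    linarith
  have he : 28 * n ≤ 30 * (n - m - D) := by omega
  have hbn : 2 * D + 1 + m ≤ n := by omega
  -- real number facts
  set d : ℝ := (D : ℝ) with hddef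
  have hd1 : (1 : ℝ) ≤ d := by
    have h1 : (1 : ℝ) ≤ (D : ℝ) := by exact_mod_cast hD1
    exact h1
  have hd0 : 0 < d := by linarith
  have hnd : (n : ℝ) < (d + 1) ^ 4 := by
    have : ((n : ℕ) : ℝ) < (((D + 1) ^ 4 : ℕ) : ℝ) := by exact_mod_cast hnat
    push_cast at this
    exact this
  have hd16 : (d + 1) ^ 4 ≤ 16 * d ^ 4 := by
    have h1 : (d + 1) ^ 4 ≤ (2 * d) ^ 4 := pow_le_pow_left₀ (by linarith) (by linarith) 4
    calc (d + 1) ^ 4 ≤ (2 * d) ^ 4 := h1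
      _ = 16 * d ^ 4 := by ring
  have hn16 : (n : ℝ) < 16 * d ^ 4 := lt_of_lt_of_le hnd hd16
  -- d ^ 4 is large
  have hT : 4 * 48 ^ 15 * C ^ 14 < d ^ 4 := by linarith
  have hd8 : 16 * 48 ^ 30 * C ^ 28 ≤ d ^ 8 := by
    have hT0 : 0 ≤ 4 * 48 ^ 15 * C ^ 14 := by positivity
    have h1 : (4 * 48 ^ 15 * C ^ 14) ^ 2 ≤ (d ^ 4) ^ 2 := pow_le_pow_left₀ hT0 hT.le 2
    calc 16 * 48 ^ 30 * C ^ 28 = (4 * 48 ^ 15 * C ^ 14) ^ 2 := by ring
      _ ≤ (d ^ 4) ^ 2 := h1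
      _ = d ^ 8 := by ring
  have hdC : C + 1 ≤ d := by
    by_contra h
    rw [not_le] at h
    have h1 : d ^ 4 ≤ (C + 1) ^ 4 := pow_le_pow_left₀ hd0.le h.le 4
    linarith
  set s : ℝ := Real.sqrt d with hsdef
  have hs2 : s ^ 2 = d := Real.sq_sqrt hd0.le
  have hs1 : 1 ≤ s := by
    have h1 : Real.sqrt 1 ≤ Real.sqrt d := Real.sqrt_le_sqrt hd1
    rwa [Real.sqrt_one] at h1
  have hspos : 0 < s := by linarith
  have hds : 0 < d * s := mul_pos hd0 hspos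
  have hρ1 : C / (d * s) ≤ 1 := by
    rw [div_le_one hds]
    nlinarith [mul_nonneg hd0.le (sub_nonneg.mpr hs1)]
  have hρ0 : 0 ≤ C / (d * s) := div_nonneg hC.le hds.le
  have hds28 : (d * s) ^ 28 = d ^ 42 := by
    have h1 : s ^ 28 = d ^ 14 := by
      calc s ^ 28 = (s ^ 2) ^ 14 := by ring
        _ = d ^ 14 := by rw [hs2]
    rw [mul_pow, h1]; ring
  set a : ℝ := ((2 * D + 1 : ℕ) : ℝ) with hadef
  set b : ℝ := ((2 * D + 1 + m : ℕ) : ℝ) with hbdef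
  have ha0 : 0 ≤ a := Nat.cast_nonneg _
  have ha3 : a ≤ 3 * d := by
    have : a = 2 * d + 1 := by rw [hadef, hddef]; push_cast; ring
    rw [this]; linarith
  have hb1 : 1 ≤ b := by
    have : (1 : ℕ) ≤ 2 * D + 1 + m := by omega
    rw [hbdef]; exact_mod_cast this
  have hb0 : 0 ≤ b := by linarith
  have hbn' : b ≤ 16 * d ^ 4 := by
    have : b ≤ (n : ℝ) := by rw [hbdef]; exact_mod_cast hbn
    linarith
  have hkey : 2 ^ 30 * a ^ 30 * b * (C / (d * s)) ^ 28 ≤ (1 / 8 : ℝ) ^ 30 := by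
    rw [div_pow, ← mul_div_assoc, div_le_iff₀ (by positivity), hds28]
    have hC28 : 0 ≤ C ^ 28 := by positivity
    have h1 : a ^ 30 ≤ (3 * d) ^ 30 := pow_le_pow_left₀ ha0 ha3 30
    calc 2 ^ 30 * a ^ 30 * b * C ^ 28
        ≤ 2 ^ 30 * (3 * d) ^ 30 * (16 * d ^ 4) * C ^ 28 := by
          apply mul_le_mul_of_nonneg_right _ hC28
          apply mul_le_mul (mul_le_mul_of_nonneg_left h1 (by positivity)) hbn' hb0
            (by positivity)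
      _ = (1 / 8) ^ 30 * d ^ 34 * (16 * 48 ^ 30 * C ^ 28) := by ring
      _ ≤ (1 / 8) ^ 30 * d ^ 34 * d ^ 8 :=
          mul_le_mul_of_nonneg_left hd8 (by positivity)
      _ = (1 / 8) ^ 30 * d ^ 42 := by ring
  refine ⟨hρ1, ?_⟩
  set ρ : ℝ := C / (d * s) with hρdef
  have hB0 : (0 : ℝ) ≤ (1 / 8) ^ n := by positivity
  have h30 : ((2 : ℝ) ^ n * a ^ n * b ^ m * ρ ^ (n - m - D)) ^ 30 ≤ ((1 / 8 : ℝ) ^ n) ^ 30 := by
    calc ((2 : ℝ) ^ n * a ^ n * b ^ m * ρ ^ (n - m - D)) ^ 30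
        = (2 ^ 30 * a ^ 30) ^ n * b ^ (30 * m) * ρ ^ (30 * (n - m - D)) := by
          rw [mul_pow, mul_pow, mul_pow, mul_pow, ← pow_mul, ← pow_mul, ← pow_mul, ← pow_mul,
            ← pow_mul, ← pow_mul, mul_comm n 30, mul_comm m 30, mul_comm (n - m - D) 30]
      _ ≤ (2 ^ 30 * a ^ 30) ^ n * b ^ n * ρ ^ (28 * n) := by
          apply mul_le_mul
            (mul_le_mul_of_nonneg_left (pow_le_pow_right₀ hb1 hmn) (by positivity))
            (pow_le_pow_of_le_one hρ0 hρ1 he) (by positivity) (by positivity)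
      _ = (2 ^ 30 * a ^ 30 * b * ρ ^ 28) ^ n := by
          rw [mul_pow (2 ^ 30 * a ^ 30 * b) (ρ ^ 28) n, mul_pow (2 ^ 30 * a ^ 30) b n,
            ← pow_mul ρ 28 n]
      _ ≤ ((1 / 8 : ℝ) ^ 30) ^ n := pow_le_pow_left₀ (by positivity) hkey n
      _ = ((1 / 8 : ℝ) ^ n) ^ 30 := by rw [← pow_mul, ← pow_mul, mul_comm]
  by_contra hlt
  have := pow_lt_pow_left₀ (not_le.mp hlt) hB0 (by norm_num : (30 : ℕ) ≠ 0)
  linarith

end Vale.Agent.Lib.P160.H33
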